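import Vale.Agent.P229.Bdl.B2

open scoped ContDiff
open Vale.Agent.P229

namespace Vale.Agent.Results.P229.NoLocalImmersion

theorem result : ∃ g : E2 → Matrix (Fin 2) (Fin 2) ℝ, IsMetricOn ∞ g Set.univ ∧
    ∀ n : WithTop ℕ∞, 4 ≤ n → ¬ LocallyRealizableAt n g 0 :=
  Vale.Agent.P229.D.main

end Vale.Agent.Results.P229.NoLocalImmersion
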